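import Vale.Agent.P253Z.T2.Asm
import Vale.Agent.P253Z.VS.Loc

/-! P253, block GLUE: elementary properties of the field of ratios. -/

open scoped Manifold ContDiff Bundle ENNReal Topology
open Bundle IsManifold MeasureTheory Set Metric Filter Vale.Agent.P253.Mfd
open Vale.Agent.P272.K (Cm Chart)
open Vale.Agent.P253Z Vale.Agent.P253Z.T2

set_option linter.all false

noncomputable section

namespace Vale.Agent.P253Y.Gl

variable {n : ℕ} {M : Type} [MetricSpace M] [ChartedSpace (Cm n) M]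
  {T : ℕ → Submodule ℂ (M → ℂ)} {K : Type} [Field K] [Algebra ℂ K] (ff : FF n T K)

theorem val_zero (x : M) : ff.val 0 x = 0 := by simpa using ff.val_const x 0

theorem val_one (x : M) : ff.val 1 x = 1 := by simpa using ff.val_const x 1

/-- The value at a point is a homomorphism. -/
def valA (x : M) : ff.O x →ₐ[ℂ] ℂ where
  toFun f := ff.val f x
  map_one' := val_one ff x
  map_mul' f g := ff.val_mul x f f.2 g g.2
  map_zero' := val_zero ff x
  map_add' f g := ff.val_add x f f.2 g g.2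
  commutes' c := ff.val_const x c

theorem val_sub {x : M} {f g : K} (hf : f ∈ ff.O x) (hg : g ∈ ff.O x) :
    ff.val (f - g) x = ff.val f x - ff.val g x := map_sub (valA ff x) ⟨f, hf⟩ ⟨g, hg⟩

theorem val_ne {x : M} {f : K} (h0 : f ≠ 0) (h : f ∈ ff.O x) (h' : f⁻¹ ∈ ff.O x) :
    ff.val f x ≠ 0 := fun e => by
  have h1 := ff.val_mul x f h _ h'
  rw [mul_inv_cancel₀ h0, val_one, e, zero_mul] at h1
  exact one_ne_zero h1

theorem ne_of_val {x : M} {f : K} (h : ff.val f x ≠ 0) : f ≠ 0 := fun e =>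
  h (by rw [e, val_zero])

theorem val_aeval {x : M} {z : Fin n → K} (hz : ∀ i, z i ∈ ff.O x) (p : Pz n) :
    MvPolynomial.aeval z p ∈ ff.O x ∧
      ff.val (MvPolynomial.aeval z p) x = MvPolynomial.eval (fun i => ff.val (z i) x) p := by
  induction p using MvPolynomial.induction_on with
  | C c => exact ⟨by simp, by simp [ff.val_const]⟩
  | add p q hp hq =>
    rw [map_add, map_add]
    exact ⟨add_mem hp.1 hq.1, by rw [ff.val_add x _ hp.1 _ hq.1, hp.2, hq.2]⟩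
  | mul_X p i hp =>
    rw [map_mul, map_mul, MvPolynomial.aeval_X, MvPolynomial.eval_X]
    exact ⟨mul_mem hp.1 (hz i), by rw [ff.val_mul x _ hp.1 _ (hz i), hp.2]⟩

theorem val_ev {x : M} {z : Fin n → K} (hz : ∀ i, z i ∈ ff.O x) {g : K} (hg : g ∈ ff.O x)
    (P : Polynomial (Pz n)) :
    P.eval₂ (MvPolynomial.aeval z : Pz n →ₐ[ℂ] K) g ∈ ff.O x ∧
      ff.val (P.eval₂ (MvPolynomial.aeval z : Pz n →ₐ[ℂ] K) g) x =
        VS.ev P (fun i => ff.val (z i) x) (ff.val g x) := by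
  induction P using Polynomial.induction_on' with
  | add p q hp hq =>
    rw [Polynomial.eval₂_add]
    refine ⟨add_mem hp.1 hq.1, ?_⟩
    rw [ff.val_add x _ hp.1 _ hq.1, hp.2, hq.2]
    simp [VS.ev]
  | monomial k a =>
    rw [Polynomial.eval₂_monomial]
    have h1 := val_aeval ff hz a
    have h2 : ff.val (g ^ k) x = ff.val g x ^ k := map_pow (valA ff x) ⟨g, hg⟩ k
    refine ⟨mul_mem h1.1 (pow_mem hg k), ?_⟩
    refine (ff.val_mul x _ h1.1 _ (pow_mem hg k)).trans ?_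
    rw [h2]
    exact (congrArg (· * _) h1.2).trans (by simp [VS.ev])

/-- The elements `z` are the ratios `s / s₀`. -/
def Rt (s₀ : M → ℂ) (s : Fin n → M → ℂ) (z : Fin n → K) : Prop :=
  ∀ y, s₀ y ≠ 0 → ∀ i, z i ∈ ff.O y ∧ ff.val (z i) y = Phi s₀ s y i

theorem exists_rt {m : ℕ} {s₀ : M → ℂ} {s : Fin n → M → ℂ} (h₀ : s₀ ∈ T m) (hs : ∀ i, s i ∈ T m)
    (h0 : s₀ ≠ 0) : ∃ z, Rt ff s₀ s z := by
  choose z hz using fun i => ff.rat m (s i) (hs i) s₀ h₀ h0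
  exact ⟨z, fun y hy i => hz i y hy⟩

variable {ff}

theorem Rt.val {s₀ : M → ℂ} {s : Fin n → M → ℂ} {z : Fin n → K} (h : Rt ff s₀ s z) {y : M}
    (hy : s₀ y ≠ 0) : (fun i => ff.val (z i) y) = Phi s₀ s y := funext fun i => (h y hy i).2

theorem Rt.indep (et : ET n M) {m : ℕ} {s₀ : M → ℂ} {s : Fin n → M → ℂ} (h₀ : IsSec n (-m) s₀)
    (hs : ∀ i, IsSec n (-m) (s i)) (hE : ∃ x, Et s₀ s x) {z : Fin n → K} (h : Rt ff s₀ s z) :
    AlgebraicIndependent ℂ z := by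
  obtain ⟨x, hx⟩ := hE
  obtain ⟨V, ρ, j, -, -, hρ, -, h4, h5⟩ := et.inv m s₀ s h₀ hs x hx
  refine algebraicIndependent_iff.2 fun p hp => by_contra fun h0 => ?_
  obtain ⟨w, hw, h6⟩ := exists_ne h0 _ hρ
  have h7 := (h5 _ (h4 w hw).1).1.1
  have h8 := (val_aeval ff (fun i => (h _ h7 i).1) p).2
  rw [hp, val_zero, h.val h7, (h4 w hw).2] at h8
  exact h6 h8.symm

/-- The differential of the ratios is the differential of the values. -/
theorem Rt.bij (et : ET n M) {m : ℕ} {s₀ : M → ℂ} {s : Fin n → M → ℂ} (h₀ : IsSec n (-m) s₀)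
    {z : Fin n → K} (h : Rt ff s₀ s z) {x : M} (hx : Et s₀ s x) (e : Chart n M) (he : Hc e)
    (hxe : x ∈ e.source) :
    Function.Bijective (fderiv ℂ (fun w i => ff.val (z i) (e.symm w)) (e x)) := by
  have h1 := (et.cont _ s₀ s₀ h₀ h₀ x hx.1).2
  have h2 : Tendsto e.symm (𝓝 (e x)) (𝓝 x) := e.tendsto_symm hxe
  have h3 : (fun w i => ff.val (z i) (e.symm w)) =ᶠ[𝓝 (e x)] fun w => Phi s₀ s (e.symm w) := by
    filter_upwards [h2.eventually h1] with w hw using h.val hw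
  rw [h3.fderiv_eq]
  exact hx.2 e he hxe

variable [RiemannianBundle (fun x : M => TangentSpace 𝓘(ℝ, Cm n) x)] [MeasurableSpace M]
  {μ : Measure M} {p : M} {F : Fr n μ p}

/-- The primitive element. -/
theorem Rt.prim {ff : FF n F.Tame K} (et : ET n M) {m : ℕ} {s₀ : M → ℂ} {s : Fin n → M → ℂ}
    (hm : 1 ≤ m) (h₀ : IsSec n (-m) s₀) (hs : ∀ i, IsSec n (-m) (s i)) (hE : ∃ x, Et s₀ s x)
    {z : Fin n → K} (h : Rt ff s₀ s z) (D : Prim F s₀ s) :
    ∃ g : K, (∀ y, D.v y ≠ 0 → g ∈ ff.O y ∧ ff.val g y = D.u y / D.v y) ∧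
      D.P.eval₂ (MvPolynomial.aeval z : Pz n →ₐ[ℂ] K) g = 0 ∧
      ∀ f : K, ∃ d : Pz n, d ≠ 0 ∧ ∃ R : Polynomial (Pz n),
        MvPolynomial.aeval z d * f = R.eval₂ (MvPolynomial.aeval z : Pz n →ₐ[ℂ] K) g := by
  obtain ⟨g, hg⟩ := ff.rat D.l D.u D.hu D.v D.hv D.v_ne
  obtain ⟨x₀, -⟩ := id hE
  obtain ⟨x₁, h1, h2⟩ := (et.dense m s₀ s hm h₀ hs hE D.l D.v D.hv.1 D.v_ne x₀).exists
  have h3 := (et.cont _ D.v D.v D.hv.1 D.hv.1 x₁ h2).2
  refine ⟨g, hg, ff.inj x₁ _ (val_ev ff (fun i => (h x₁ h1.1 i).1) (hg x₁ h2).1 _).1 ?_,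
    fun f => ?_⟩
  · filter_upwards [h3, (et.cont _ s₀ s₀ h₀ h₀ x₁ h1.1).2] with y a1 a2
    rw [(val_ev ff (fun i => (h y a2 i).1) (hg y a1).1 _).2, h.val a2, (hg y a1).2]
    exact D.root y a2 a1
  · obtain ⟨k, a, ha, b, hb, hb0, hf⟩ := ff.surj f
    obtain ⟨d, hd, R, hR⟩ := D.gen k a ha b hb hb0
    obtain ⟨x, ⟨h4, h5⟩, h6⟩ :=
      ((et.dense m s₀ s hm h₀ hs hE k b hb.1 hb0 x₁).and_eventually h3).exists
    have key : ∀ y, s₀ y ≠ 0 → D.v y ≠ 0 → b y ≠ 0 →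
        MvPolynomial.aeval z d * f - R.eval₂ (MvPolynomial.aeval z : Pz n →ₐ[ℂ] K) g ∈ ff.O y ∧
        ff.val (MvPolynomial.aeval z d * f -
          R.eval₂ (MvPolynomial.aeval z : Pz n →ₐ[ℂ] K) g) y = 0 := by
      intro y a1 a2 a3
      have b1 := val_aeval ff (fun i => (h y a1 i).1) d
      have b2 := val_ev ff (fun i => (h y a1 i).1) (hg y a2).1 R
      have b3 := mul_mem b1.1 (hf y a3).1
      refine ⟨sub_mem b3 b2.1, ?_⟩
      rw [val_sub ff b3 b2.1, ff.val_mul y _ b1.1 _ (hf y a3).1, b1.2, b2.2, h.val a1,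
        (hg y a2).2, (hf y a3).2, hR y a1 a2 a3, sub_self]
    refine ⟨d, hd, R, sub_eq_zero.1 (ff.inj x _ (key x h4.1 h6 h5).1 ?_)⟩
    filter_upwards [(et.cont _ s₀ s₀ h₀ h₀ x h4.1).2, (et.cont _ D.v D.v D.hv.1 D.hv.1 x h6).2,
      (et.cont _ b b hb.1 hb.1 x h5).2] with y a1 a2 a3 using (key y a1 a2 a3).2

/-- The field is finite over the field of the coordinates. -/
theorem Rt.fin {ff : FF n F.Tame K} (et : ET n M) {m : ℕ} {s₀ : M → ℂ} {s : Fin n → M → ℂ}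
    (hm : 1 ≤ m) (h₀ : IsSec n (-m) s₀) (hs : ∀ i, IsSec n (-m) (s i)) (hE : ∃ x, Et s₀ s x)
    {z : Fin n → K} (h : Rt ff s₀ s z) (D : Prim F s₀ s) :
    FiniteDimensional (IntermediateField.adjoin ℂ (range z)) K := by
  obtain ⟨g, -, h1, h2⟩ := h.prim et hm h₀ hs hE D
  have hi := h.indep et h₀ hs hE
  set L := IntermediateField.adjoin ℂ (range z)
  let z' : Fin n → L := fun i => ⟨z i, IntermediateField.subset_adjoin _ _ ⟨i, rfl⟩⟩
  let φ : Pz n →+* L := (MvPolynomial.aeval z' : Pz n →ₐ[ℂ] L)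
  have hφ : (algebraMap L K).comp φ = (MvPolynomial.aeval z : Pz n →ₐ[ℂ] K) :=
    MvPolynomial.ringHom_ext (fun c => by simp [φ]) fun i => by simp [φ, z']
  have h3 : ∀ R : Polynomial (Pz n), Polynomial.aeval g (R.map φ) =
      R.eval₂ (MvPolynomial.aeval z : Pz n →ₐ[ℂ] K) g := fun R => by
    rw [Polynomial.aeval_def, Polynomial.eval₂_map, hφ]
  have h4 : IsIntegral L g := ⟨D.P.map φ, D.monic.map φ, (h3 D.P).trans h1⟩
  have h5 : IntermediateField.adjoin L {g} = ⊤ := by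
    refine top_le_iff.1 fun f _ => ?_
    obtain ⟨d, hd, R, hR⟩ := h2 f
    have h6 : MvPolynomial.aeval z d ≠ 0 := fun e => hd (algebraicIndependent_iff.1 hi d e)
    have h7 : MvPolynomial.aeval z d = algebraMap L K (φ d) := (RingHom.congr_fun hφ d).symm
    rw [← mul_div_cancel_left₀ f h6, hR, ← h3, h7]
    refine div_mem ?_ (IntermediateField.algebraMap_mem _ _)
    exact IntermediateField.algebra_adjoin_le_adjoin L {g} (Polynomial.aeval_mem_adjoin_singleton L g)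
  have h6 := IntermediateField.adjoin.finiteDimensional h4
  rw [h5] at h6
  exact IntermediateField.topEquiv.toLinearEquiv.finiteDimensional

theorem trdeg_of {z : Fin n → K} (hi : AlgebraicIndependent ℂ z)
    (hf : FiniteDimensional (IntermediateField.adjoin ℂ (range z)) K) :
    Algebra.trdeg ℂ K = n := by
  have h1 : IsTranscendenceBasis ℂ z := hi.isTranscendenceBasis_iff_isAlgebraic.2
    (IntermediateField.isAlgebraic_adjoin_iff_top.1 inferInstance)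
  simpa using h1.lift_cardinalMk_eq_trdeg.symm

/-- Local coordinates in the field at every point. -/
theorem coord (ff : FF n F.Tame K) (h3 : PK3 n μ) (et : ET n M) (prim : PRIM n μ) (x : M) :
    ∃ (z : Fin n → K) (e : Chart n M), (∀ i, z i ∈ ff.O x) ∧ Hc e ∧ x ∈ e.source ∧
      Function.Bijective (fderiv ℂ (fun w i => ff.val (z i) (e.symm w)) (e x)) ∧
      AlgebraicIndependent ℂ z ∧ FiniteDimensional (IntermediateField.adjoin ℂ (range z)) K := by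
  obtain ⟨e, he, hx, m, hm, s₀, s, h₀, hs, hne, hb⟩ := h3 x
  have hE := et.of_chart m s₀ s h₀.1 (fun i => (hs i).1) x e he hx hne hb
  obtain ⟨z, hz⟩ := exists_rt ff (tame_of_inH F hm h₀) (fun i => tame_of_inH F hm (hs i))
    fun h => hne (by rw [h]; rfl)
  obtain ⟨D⟩ := prim p F m s₀ s hm h₀ hs ⟨x, hE⟩
  exact ⟨z, e, fun i => (hz x hne i).1, he, hx, hz.bij et h₀.1 hE e he hx,
    hz.indep et h₀.1 (fun i => (hs i).1) ⟨x, hE⟩,
    hz.fin et hm h₀.1 (fun i => (hs i).1) ⟨x, hE⟩ D⟩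

theorem trdeg (ff : FF n F.Tame K) (h3 : PK3 n μ) (et : ET n M) (prim : PRIM n μ) :
    Algebra.trdeg ℂ K = n := by
  obtain ⟨z, -, -, -, -, -, h1, h2⟩ := coord ff h3 et prim p
  exact trdeg_of h1 h2

/-- The field separates the points. -/
theorem sep_pt (ff : FF n F.Tame K) (h2 : PK2 n μ) {x y : M} (h : x ≠ y) :
    ∃ f, f ∈ ff.O x ∧ f ∈ ff.O y ∧ ff.val f x = 0 ∧ ff.val f y ≠ 0 := by
  obtain ⟨m, hm, a, b, ha, hb, h1, h3, h4, h5⟩ := h2 x y h
  obtain ⟨f, hf⟩ := ff.rat m a (tame_of_inH F hm ha) b (tame_of_inH F hm hb)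
    fun h => h4 (by rw [h]; rfl)
  exact ⟨f, (hf x h4).1, (hf y h5).1, by rw [(hf x h4).2, h1, zero_div],
    by rw [(hf y h5).2]; exact div_ne_zero h3 h5⟩

theorem sep_le (ff : FF n F.Tame K) (h2 : PK2 n μ) {x y : M} (h : ff.O x ≤ ff.O y) : x = y := by
  by_contra hc
  obtain ⟨f, h1, h3, h4, h5⟩ := sep_pt ff h2 (Ne.symm hc)
  exact val_ne ff (ne_of_val ff h5) h1 (h (ff.inv x f h3 h5)) h4

theorem sep_val (ff : FF n F.Tame K) (h2 : PK2 n μ) {x y : M} {V : ValuationSubring K}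
    (hx : (∀ f ∈ ff.O x, f ∈ V) ∧ ∀ f ∈ ff.O x, f⁻¹ ∈ V → f⁻¹ ∈ ff.O x)
    (hy : (∀ f ∈ ff.O y, f ∈ V) ∧ ∀ f ∈ ff.O y, f⁻¹ ∈ V → f⁻¹ ∈ ff.O y) : x = y := by
  by_contra hc
  obtain ⟨f, h1, h3, h4, h5⟩ := sep_pt ff h2 hc
  exact val_ne ff (ne_of_val ff h5) h1 (hx.2 f h1 (hy.1 _ (ff.inv y f h3 h5))) h4

variable [IsManifold 𝓘(ℂ, Cm n) 1 M]

theorem hol_at (ff : FF n T K) (a : B1a n M) {x : M} {f : K} (hf : f ∈ ff.O x) :
    ∀ᶠ y in 𝓝 x, MDifferentiableAt 𝓘(ℂ, Cm n) 𝓘(ℂ) (ff.val f) y := by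
  filter_upwards [ff.nhds x f hf] with y hy
  exact (VS.has_of (u := ff.val f)
    (ff.hol y f hy _ (a.chart y) (mem_chart_source _ y))).mdifferentiableAt

theorem jet_at (ff : FF n F.Tame K) (a : B1a n M) (h3 : PK3 n μ) (et : ET n M) (x : M) :
    ∃ z : Fin n → K, (∀ i, z i ∈ ff.O x) ∧ Function.Bijective
      (mfderiv 𝓘(ℂ, Cm n) 𝓘(ℂ, Cm n) (fun y => (fun i => ff.val (z i) y : Cm n)) x) := by
  obtain ⟨e, he, hx, m, hm, s₀, s, h₀, hs, hne, hb⟩ := h3 x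
  have hE := et.of_chart m s₀ s h₀.1 (fun i => (hs i).1) x e he hx hne hb
  obtain ⟨z, hz⟩ := exists_rt ff (tame_of_inH F hm h₀) (fun i => tame_of_inH F hm (hs i))
    fun h => hne (by rw [h]; rfl)
  refine ⟨z, fun i => (hz x hne i).1, ?_⟩
  have h2 := VS.has_of (u := fun y => (fun i => ff.val (z i) y : Cm n)) (y := x)
    (analyticAt_pi_iff.2 fun i =>
      ff.hol x _ (hz x hne i).1 _ (a.chart x) (mem_chart_source _ x))
  rw [h2.mfderiv]
  exact (hz.bij et h₀.1 hE _ (a.chart x) (mem_chart_source _ x)).comp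
    ((mdifferentiable_chart (I := 𝓘(ℂ, Cm n)) x).mfderiv_bijective (mem_chart_source _ x))

end Vale.Agent.P253Y.Gl
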