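import Vale.Agent.P253Y.An.Defs
import Vale.Agent.P253Y.Gl.Ff

/-! P253, block GLUE: the field of ratios is a field of meromorphic functions. -/

open scoped Manifold ContDiff Bundle ENNReal Topology
open Bundle IsManifold MeasureTheory Set Metric Filter Vale.Agent.P253.Mfd
open Vale.Agent.P272.K (Cm Chart)
open Vale.Agent.P253Z Vale.Agent.P253Z.T2

namespace Vale.Agent.P253Y.Gl

variable {M : Type} [MetricSpace M] [ChartedSpace (Cm 2) M] [IsManifold 𝓘(ℂ, Cm 2) 1 M]
  [RiemannianBundle (fun x : M => TangentSpace 𝓘(ℝ, Cm 2) x)] [MeasurableSpace M] {μ : Measure M}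
  {p : M} {F : Fr 2 μ p} {K : Type} [Field K] [Algebra ℂ K]

/-- The field of ratios as a field of meromorphic functions. -/
def fld (A : All 2 μ) (et : ET 2 M) (ff : FF 2 F.Tame K) : An.Fld M K where
  O := ff.O
  val := ff.val
  val_add := ff.val_add
  val_mul := ff.val_mul
  val_const := ff.val_const
  nhds := ff.nhds
  hol _ _ hf := hol_at ff A.a hf
  inv := ff.inv
  sep _ _ h := sep_le ff A.pk2 h
  jet x := by
    obtain ⟨z, h1, h2⟩ := jet_at ff A.a A.pk3 et x
    refine ⟨z 0, h1 0, z 1, h1 1, ?_⟩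
    have e : (fun y => (![ff.val (z 0) y, ff.val (z 1) y] : Cm 2)) =
        fun y => (fun i => ff.val (z i) y : Cm 2) := by
      funext y i
      fin_cases i <;> rfl
    exact e ▸ h2.1

end Vale.Agent.P253Y.Gl
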