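import Vale.Agent.P253Y.Res.Sk

/-! P253, surfaces, block GLUE: finitely many affine charts cover the surface. Statements. -/

set_option linter.all false

namespace Vale.Agent.P253Y.Gl

open Vale.Agent.P297Z Vale.Agent.P297Z.Sf Vale.Agent.P253Y.Res

variable {K : Type} [Field K] [Algebra ℂ K]

/-- The intersection form is nonnegative on the orthogonal of `D`. -/
def Psd (S : Surf K) (D : Finset (Crv S.W)) : Prop :=
  ∀ G : Sf.Div S.W, (∀ C ∈ D, inter G (Finsupp.single C 1) = 0) → 0 ≤ inter G G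

/-- All the local rings of the closed points of `A` belong to the family. -/
def Chr {M : Type} (O : M → Subalgebra ℂ K) (A : Subalgebra ℂ K) : Prop :=
  Algebra.FiniteType ℂ A ∧ IsFractionRing A K ∧
    ∀ (n : Ideal A) (hn : n.IsMaximal), ∃ m, O m = loc A n hn.isPrime

/-- A separated family of regular local rings that is covered by affine charts. -/
structure Fam {M : Type} (O : M → Subalgebra ℂ K) : Prop where
  two : ∀ m, Two (O m)
  sep : ∀ m m' (V : ValuationSubring K), Ct.Dom (O m) V → Ct.Dom (O m') V → O m = O m'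
  ch : ∀ m, ∃ A, Chr O A ∧ ∃ (n : Ideal A) (hn : n.IsMaximal), O m = loc A n hn.isPrime

/-- The points off `D` belong to the family. -/
def Pc {M : Type} (O : M → Subalgebra ℂ K) (S : Surf K) (D : Finset (Crv S.W)) : Prop :=
  ∀ x : Pt S.W, Off D x → ∃ m, O m = x.ring

/-- The family consists of points off `D`. -/
def Ot {M : Type} (O : M → Subalgebra ℂ K) (S : Surf K) (D : Finset (Crv S.W)) : Prop :=
  ∀ m, ∃ x : Pt S.W, Off D x ∧ O m = x.ring

/-- Two local rings with a common dominating valuation: a curve through `O'` is contracted to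
`O`. -/
def KR : Prop := For2 fun K _ _ => ∀ (O O' : Subalgebra ℂ K) (V : ValuationSubring K), Geo O →
  Two O → Geo O' → Ct.Dom O V → Ct.Dom O' V → ¬ O' ≤ O →
  ∃ P : ValuationSubring K, P ≠ ⊤ ∧ Ct.Dom O P ∧ (∀ f ∈ O', f ∈ P) ∧ ¬ Ct.Dom O' P

/-- The number of curves that can be added to a piece is bounded. -/
def BOUND : Prop := ForAll fun {K} _ _ S => ∀ (S₀ : Surf K) (D₀ : Finset (Crv S₀.W))
  (D B : Finset (Crv S.W)), Psd S D →
  (∀ C₀ : Crv S₀.W, C₀ ∉ D₀ → ∃ C : Crv S.W, C ∉ B ∧ C.pl = C₀.pl) →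
  B.card ≤ D.card + D₀.card + 1

/-- The family is the complement of a divisor with normal crossings. -/
def FINITE : Prop := For2 fun K _ _ => ∀ (M : Type) [Nonempty M] (O : M → Subalgebra ℂ K),
  Fam O → (∀ (S : Surf K) (D : Finset (Crv S.W)), Pc O S D → Psd S D) →
  ∃ (S : Surf K) (D : Finset (Crv S.W)), Snc S D ∧ Pc O S D ∧ Ot O S D

end Vale.Agent.P253Y.Gl
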