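import Vale.Agent.P253Y.Gl.Sk
import Vale.Agent.P253Y.G.Basic

/-! P253, surfaces, block GLUE: the number of curves that can be added to a piece is bounded. -/

set_option linter.all false

namespace Vale.Agent.P253Y.Gl

open Vale.Agent.P297Z Vale.Agent.P297Z.Sf Vale.Agent.P253Y.Res Vale.Agent.P297Z.Sf.Mp

variable {K : Type} [Field K] [Algebra ℂ K]

namespace Bo

theorem ex_pt {S S₀ : Surf K} (h : Cent S) (C₀ : Crv S₀.W) :
    ∃ y : Pt S.W, ∀ f ∈ y.ring, f ∈ C₀.pl.ring := by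
  rcases h.ex C₀.pl.ring C₀.const_mem (Pl.ring_ne_top _) with ⟨y, hy⟩ | ⟨C, hC⟩
  · exact ⟨y, hy.1⟩
  · obtain ⟨i, hi⟩ := S.all.crv_cover C
    obtain ⟨y, hy⟩ := (S.all.inf_pt C _ (S.x_mem i) hi).nonempty
    exact ⟨y, fun f hf => hC ▸ hy.1 f hf⟩

theorem ord_le {S S₀ : Surf K} {C₀ : Crv S₀.W} {y : Pt S.W} (hy : ∀ f ∈ y.ring, f ∈ C₀.pl.ring)
    {G : Sf.Div S.W} {s f : K} (hs : GenAt y G s) (h0 : f ≠ 0)
    (hf : ∀ C, y.On C → 0 ≤ C.ord f + G C) : C₀.ord s ≤ C₀.ord f := by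
  have h1 : f / s ∈ y.ring := (S.all.normal y _).1 (Or.inr fun C hC => by
    have a1 := hf C hC
    have a2 := hs.2 C hC
    have a3 : C.ord (f / s) = C.ord f - C.ord s := Pl.ord_div _ h0 hs.1
    simp only [Finsupp.coe_zero, Pi.zero_apply]
    omega)
  have h2 := Pl.ord_nonneg_of_mem _ (hy _ h1)
  rw [Pl.ord_div _ h0 hs.1] at h2
  unfold Crv.ord
  omega

/-- The coefficient of the pull back along a curve of another model. -/
theorem ex_c {S S₀ : Surf K} (h : Cent S) (C₀ : Crv S₀.W) : ∃ c : Sf.Div S.W →+ ℤ,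
    ∀ (G : Sf.Div S.W) (f : K), f ∈ H0 G → f ≠ 0 → 0 ≤ C₀.ord f + c G := by
  obtain ⟨y, hy⟩ := ex_pt h C₀
  choose s hs using S.all.gen y
  refine ⟨AddMonoidHom.mk' (fun G => - C₀.ord (s G)) fun G G' => ?_, fun G f hf h0 => ?_⟩
  · have h1 : GenAt y (G + G') (s G * s G') := ⟨mul_ne_zero (hs G).1 (hs G').1, fun C hC => by
      have a1 := (hs G).2 C hC
      have a2 := (hs G').2 C hC
      have a3 : C.ord (s G * s G') = C.ord (s G) + C.ord (s G') :=
        Pl.ord_mul _ (hs G).1 (hs G').1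
      rw [Finsupp.add_apply]
      omega⟩
    have h2 := ord_le hy h1 (hs _).1 fun C hC => ((hs (G + G')).2 C hC).ge
    have h3 := ord_le hy (hs (G + G')) h1.1 fun C hC => (h1.2 C hC).ge
    have h4 : C₀.ord (s G * s G') = C₀.ord (s G) + C₀.ord (s G') :=
      Pl.ord_mul _ (hs G).1 (hs G').1
    omega
  · have h1 := ord_le hy (hs G) h0 fun C _ => (mem_secOn.1 hf).resolve_left h0 C trivial
    simp only [AddMonoidHom.mk'_apply]
    omega

/-- The orders along a curve are bounded on a finite dimensional space. -/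
theorem bdd {W : Submodule ℂ K} (C : Crv W) (U : Submodule ℂ K) [FiniteDimensional ℂ U] :
    ∃ k : ℕ, ∀ f ∈ U, f ≠ 0 → C.ord f < k := by
  let V : ℕ →o (Submodule ℂ U)ᵒᵈ :=
    ⟨fun k => OrderDual.toDual ((secOn (fun X => X = C) (Finsupp.single C (-(k : ℤ)))).comap
      U.subtype), fun k l hkl f hf => by
        refine (mem_secOn.1 hf).imp id fun a X hX => ?_
        have := a X hX
        subst hX
        simp only [Finsupp.single_eq_same] at this ⊢
        omega⟩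
  have mem : ∀ (k : ℕ) (f : U), f ∈ OrderDual.ofDual (V k) ↔ (f : K) = 0 ∨ (k : ℤ) ≤ C.ord f :=
    fun k f => by
      refine mem_secOn.trans (or_congr Iff.rfl ⟨fun a => ?_, fun a X hX => ?_⟩)
      · have := a C rfl
        simp only [Finsupp.single_eq_same, Submodule.subtype_apply] at this
        omega
      · subst hX
        simp only [Finsupp.single_eq_same, Submodule.subtype_apply]
        omega
  obtain ⟨k, hk⟩ := IsArtinian.monotone_stabilizes V
  refine ⟨k, fun f hf h0 => ?_⟩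
  by_contra h1
  have h2 := (mem k ⟨f, hf⟩).2 (Or.inr (not_lt.1 h1))
  rw [hk (k + (C.ord f).toNat + 1) (by omega), mem] at h2
  have h3 := h2.resolve_left h0
  push_cast at h3
  omega

theorem main {S S₀ : Surf K} (D₀ : Finset (Crv S₀.W)) (B : Finset (Crv S.W))
    (hB : ∀ C₀ : Crv S₀.W, C₀ ∉ D₀ → ∃ C : Crv S.W, C ∉ B ∧ C.pl = C₀.pl)
    (c : Crv S₀.W → Sf.Div S.W →+ ℤ)
    (hc : ∀ C₀ (G : Sf.Div S.W) (f : K), f ∈ H0 G → f ≠ 0 → 0 ≤ C₀.ord f + c C₀ G)
    {G : Sf.Div S.W} (h0 : G ≠ 0) (h1 : On G B) (h2 : 0 ≤ inter G G)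
    (h3 : ∀ C₀ ∈ D₀, c C₀ G = 0) (h4 : inter S.H G = 0) (h5 : inter S.kap G ≤ 0) : False := by
  classical
  have hA := S.all
  obtain ⟨C₁, hC₁⟩ : ∃ C₁, G C₁ < 0 := by
    by_contra hh
    push Not at hh
    exact h0 (Hd.eq_zero_of_deg hA hh h4)
  obtain ⟨m, hm⟩ : ∃ m : ℤ, m = 2 * |chi (0 : Sf.Div S.W)| + |inter S.H S.kap| + 1 := ⟨_, rfl⟩
  have sec : ∀ t : ℕ, H0 (m • S.H + (t : ℤ) • G) ≠ ⊥ := fun t => by
    have a1 := hA.sq
    have a2 := abs_nonneg (chi (0 : Sf.Div S.W))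
    have a3 := neg_abs_le (chi (0 : Sf.Div S.W))
    have a4 := le_abs_self (inter S.H S.kap)
    have a5 := abs_nonneg (inter S.H S.kap)
    have a6 : m ≤ m * inter S.H S.H := by nlinarith
    refine Hd.sec_of hA ?_ ?_
    · rw [i_add', i_smul', i_smul', h4]
      omega
    · simp only [i_add, i_add', i_smul, i_smul', h4, inter_comm G S.H, inter_comm S.kap S.H]
      have a7 : 0 ≤ (t : ℤ) * ((t : ℤ) * inter G G) := by positivity
      have a8 : (t : ℤ) * inter S.kap G ≤ 0 :=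
        mul_nonpos_of_nonneg_of_nonpos (Int.natCast_nonneg t) h5
      have a9 : m * m ≤ m * (m * inter S.H S.H) := mul_le_mul_of_nonneg_left a6 (by omega)
      have a10 : m * inter S.H S.kap ≤ m * |inter S.H S.kap| :=
        mul_le_mul_of_nonneg_left a4 (by omega)
      have a11 : 2 * |chi (0 : Sf.Div S.W)| + 1 ≤ m * (m - |inter S.H S.kap|) := by nlinarith
      nlinarith
  choose φ hφ using hB
  let g : Crv S₀.W → ℤ := fun C₀ =>
    if h : C₀ ∈ D₀ then c C₀ (m • S.H) else (m • S.H) (φ C₀ h)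
  have hg : (Function.support g).Finite := by
    refine (D₀.finite_toSet.union (((m • S.H).support.finite_toSet.image Crv.pl).preimage
      (f := Crv.pl) fun a _ b _ e => Crv.ext e)).subset fun C₀ hC₀ => ?_
    by_cases h : C₀ ∈ D₀
    · exact Or.inl h
    · refine Or.inr ⟨φ C₀ h, ?_, (hφ C₀ h).2⟩
      simpa only [g, Function.mem_support, dif_neg h, Finset.mem_coe, Finsupp.mem_support_iff]
        using hC₀
  haveI := Hd.fin S₀.all (toDiv g)
  obtain ⟨k, hk⟩ := bdd C₁ (H0 (toDiv g))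
  obtain ⟨f, hf, f0⟩ := (Submodule.ne_bot_iff _).1 (sec (k + ((m • S.H) C₁).toNat))
  have h6 : f ∈ H0 (toDiv g) := Or.inr fun C₀ _ => by
    rw [toDiv_apply hg]
    by_cases h : C₀ ∈ D₀
    · have a1 := hc C₀ _ f hf f0
      rw [map_add, map_zsmul (c C₀) _ G, h3 C₀ h, smul_zero, add_zero] at a1
      simpa only [g, dif_pos h] using a1
    · have a1 := (mem_secOn.1 hf).resolve_left f0 (φ C₀ h) trivial
      rw [Finsupp.add_apply, Finsupp.smul_apply _ G, h1 _ (hφ C₀ h).1, smul_zero, add_zero] at a1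
      unfold Crv.ord at a1 ⊢
      rw [(hφ C₀ h).2] at a1
      simpa only [g, dif_neg h] using a1
  have h7 := hk f h6 f0
  have h8 := (mem_secOn.1 hf).resolve_left f0 C₁ trivial
  rw [Finsupp.add_apply, Finsupp.smul_apply _ G, smul_eq_mul] at h8
  have h9 : ((k + ((m • S.H) C₁).toNat : ℕ) : ℤ) * G C₁ ≤
      ((k + ((m • S.H) C₁).toNat : ℕ) : ℤ) * (-1) :=
    mul_le_mul_of_nonneg_left (by omega) (Int.natCast_nonneg _)
  push_cast at h8 h9
  omega

end Bo

/-- The number of curves that can be added to a piece is bounded. -/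
theorem bound (h : Res.CENT) : BOUND := by
  classical
  intro K _ _ S S₀ D₀ D B hP hB
  choose c hc using fun C₀ : Crv S₀.W => Bo.ex_c (h K S) C₀
  by_contra hlt
  let Φ : (B → ℤ) →ₗ[ℤ] Sf.Div S.W := Fintype.linearCombination ℤ fun C : B => C.1.cl
  let F : Sf.Div S.W →ₗ[ℤ] (D → ℤ) × (D₀ → ℤ) × ℤ :=
    (LinearMap.pi fun C : D => (S.B C.1.cl).toIntLinearMap).prod
      ((LinearMap.pi fun C₀ : D₀ => (c C₀.1).toIntLinearMap).prod (S.B S.H).toIntLinearMap)
  have h1 : ¬ Function.Injective (F ∘ₗ Φ) := fun hf => by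
    have h2 := LinearMap.finrank_le_finrank_of_injective hf
    simp at h2
    omega
  rw [injective_iff_map_eq_zero] at h1
  push Not at h1
  obtain ⟨a, h2, h3⟩ := h1
  have e : Φ a = ∑ C : B, a C • C.1.cl := Fintype.linearCombination_apply _ _ _
  have g0 : Φ a ≠ 0 := fun h4 => h3 (funext fun C => by
    have h5 := DFunLike.congr_fun h4 C.1
    rw [e, Finsupp.finset_sum_apply, Finset.sum_eq_single C] at h5
    · simpa using h5
    · intro X _ hX
      rw [Finsupp.smul_apply, cl_ne (fun e => hX (Subtype.ext e.symm)), smul_zero]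
    · simp)
  have g1 : On (Φ a) B := fun C hC => by
    rw [e, Finsupp.finset_sum_apply]
    refine Finset.sum_eq_zero fun X _ => ?_
    have e' : C ≠ X.1 := fun e' => hC (e' ▸ X.2)
    rw [Finsupp.smul_apply, cl_ne e', smul_zero]
  have g2 : 0 ≤ inter (Φ a) (Φ a) := hP _ fun C hC => by
    rw [inter_comm]
    exact congrFun (congrArg Prod.fst h2) ⟨C, hC⟩
  have g3 : ∀ C₀ ∈ D₀, c C₀ (Φ a) = 0 := fun C₀ hC₀ =>
    congrFun (congrArg (fun p => p.2.1) h2) ⟨C₀, hC₀⟩
  have g4 : inter S.H (Φ a) = 0 := congrArg (fun p => p.2.2) h2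
  rcases le_total (inter S.kap (Φ a)) 0 with g5 | g5
  · exact Bo.main D₀ B hB c hc g0 g1 g2 g3 g4 g5
  · refine Bo.main D₀ B hB c hc (G := -Φ a) (neg_ne_zero.2 g0) (fun C hC => ?_) ?_
      (fun C₀ hC₀ => ?_) ?_ ?_
    · rw [Finsupp.neg_apply, g1 C hC, neg_zero]
    · rw [i_neg, i_neg', neg_neg]
      exact g2
    · rw [map_neg, g3 C₀ hC₀, neg_zero]
    · rw [i_neg', g4, neg_zero]
    · rw [i_neg']
      omega

end Vale.Agent.P253Y.Gl
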