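import Vale.Agent.P253Y.Gl.Sk

/-! P253, surfaces, block GLUE: finitely many affine charts are enough. -/

set_option linter.all false

open IsLocalRing

namespace Vale.Agent.P253Y.Gl

open Vale.Agent.P297Z Vale.Agent.P297Z.Sf Vale.Agent.P253Y.Res

namespace Fn

variable {K : Type} [Field K] [Algebra ℂ K]

theorem dom_le {z : Subalgebra ℂ K} (hz : Geo z) {V R : ValuationSubring K} (h : Ct.Dom z R)
    (hle : V ≤ R) (hc : ∀ c, algebraMap ℂ K c ∈ V) : Ct.Dom z V := by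
  refine ⟨fun f hf => ?_, fun f hf hi => h.2 f hf (hle hi)⟩
  obtain ⟨c, h1, h2⟩ := hz.val hf
  have h3 : f - algebraMap ℂ K c ∈ V := by
    rcases h2 with h0 | h0
    · rw [h0]
      exact zero_mem _
    · exact (V.mem_or_inv_mem _).resolve_right fun hi => h0 (h.2 _ h1 (hle hi))
  simpa using add_mem h3 (hc c)

theorem ne_top (htd : Algebra.trdeg ℂ K = 2) {z : Subalgebra ℂ K} (hz : Geo z)
    {V : ValuationSubring K} (h : Ct.Dom z V) : V ≠ ⊤ := by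
  rintro rfl
  have h1 : IsField z := ⟨⟨0, 1, zero_ne_one⟩, mul_comm, fun {a} ha =>
    ⟨⟨(a : K)⁻¹, h.2 _ a.2 (ValuationSubring.mem_top _)⟩,
      Subtype.ext (mul_inv_cancel₀ fun e => ha (Subtype.ext e))⟩⟩
  have h2 := hz.dim htd
  rw [ringKrullDim_eq_zero_of_isField h1] at h2
  exact absurd h2 (by decide)

theorem two (S : Surf K) (x : Pt S.W) : Two x.ring := by
  obtain ⟨w, hw, h⟩ := x.exists_in
  obtain ⟨-, -, -, -, s, t, -, -, e⟩ := S.all.gens x w hw h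
  exact ⟨s, t, (par_iff s t).1 e⟩

theorem crv {S : Surf K} (hS : Cent S) {x : Pt S.W} {P : ValuationSubring K} (h0 : P ≠ ⊤)
    (h1 : ∀ f ∈ x.ring, f ∈ P) (h2 : ¬ Ct.Dom x.ring P) : ∃ C : Crv S.W, C.pl.ring = P := by
  classical
  refine (hS.ex P (fun c => h1 _ (x.ring.algebraMap_mem c)) h0).resolve_left ?_
  rintro ⟨y, hy⟩
  obtain ⟨w, hw, -, h3, -⟩ := S.all.avoid {x, y} ∅
  have hx := h3 x (by simp)
  have hy' := h3 y (by simp)
  obtain ⟨m, hm, e, -⟩ := S.all.pt_chart x w hw hx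
  have h4 : x.ring ≤ y.ring := by
    refine e.le.trans (loc_le _ hy'.chart_le fun b hb => ?_)
    exact hy.2 _ (hy'.chart_le b.2) (h1 _ (e.ge (inv_mem_loc _ hb)))
  exact h2 (S.all.pt_ext x y h4 ▸ hy)

theorem off {S : Surf K} {D : Finset (Crv S.W)} {C : Crv S.W} (h : C ∉ D) :
    ∃ x : Pt S.W, x.On C ∧ Off D x := by
  obtain ⟨w, hw, hin⟩ := C.exists_in
  obtain ⟨x, h1, h2⟩ := ((S.all.inf_pt C w hw hin).diff (D.finite_toSet.biUnion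
    fun C' (hC' : C' ∈ D) => S.all.fin_meet C C' (ne_of_mem_of_not_mem hC' h).symm)).nonempty
  exact ⟨x, h1.1, fun C' hC' h3 => h2 (Set.mem_biUnion (Finset.mem_coe.2 hC') ⟨h1.1, h3⟩)⟩

/-- `P` is the ring of a curve off `D` -/
def Cv (S : Surf K) (D : Finset (Crv S.W)) (P : ValuationSubring K) : Prop :=
  ∃ C : Crv S.W, C ∉ D ∧ C.pl.ring = P

theorem cv_of {S : Surf K} (hS : Cent S) {D : Finset (Crv S.W)} {x : Pt S.W} (hx : Off D x)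
    {P : ValuationSubring K} (h0 : P ≠ ⊤) (h1 : ∀ f ∈ x.ring, f ∈ P) (h2 : ¬ Ct.Dom x.ring P) :
    Cv S D P := by
  obtain ⟨C, rfl⟩ := crv hS h0 h1 h2
  exact ⟨C, fun h => hx C h h1, rfl⟩

variable {M : Type}

/-- the points off `D` are the points of the charts with index in `T` -/
def Rs (A : M → Subalgebra ℂ K) (T : Set M) (S : Surf K) (D : Finset (Crv S.W)) : Prop :=
  ∀ R, (∃ x : Pt S.W, Off D x ∧ x.ring = R) ↔
    ∃ m ∈ T, ∃ (n : Ideal (A m)) (hn : n.IsMaximal), loc (A m) n hn.isPrime = R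

theorem Rs.mono {A : M → Subalgebra ℂ K} {T T' : Set M} {S S' : Surf K} {D : Finset (Crv S.W)}
    {D' : Finset (Crv S'.W)} (h : Rs A T S D) (h' : Rs A T' S' D') (hT : T ⊆ T') (hS : Cent S)
    (hS' : Cent S') {P : ValuationSubring K} (hP : Cv S D P) : Cv S' D' P := by
  obtain ⟨C, hC, rfl⟩ := hP
  obtain ⟨x, h1, h2⟩ := off hC
  obtain ⟨m, hm, h3⟩ := (h _).1 ⟨x, h2, rfl⟩
  obtain ⟨y, h4, h5⟩ := (h' _).2 ⟨m, hT hm, h3⟩
  exact cv_of hS' h4 (Pl.ring_ne_top _) (h5 ▸ h1) (h5 ▸ hS.not_crv x C)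

theorem pick [Nonempty M] {α : Type} {Z : Set α} (hZ : Z.Finite) {p : α → M → Prop}
    (h : ∀ a ∈ Z, ∃ m, p a m) (T : Set M) (hT : T.Finite) :
    ∃ T' : Set M, T'.Finite ∧ T ⊆ T' ∧ ∀ a ∈ Z, ∃ m ∈ T', p a m := by
  choose! f hf using h
  exact ⟨T ∪ f '' Z, hT.union (hZ.image f), Set.subset_union_left,
    fun a ha => ⟨f a, Or.inr ⟨a, ha, rfl⟩, hf a ha⟩⟩

end Fn

open Fn

theorem finite_of (res : Res.RES) (reg : REG) (cent : CENT) (kr : KR) (bound : BOUND) :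
    FINITE := by
  classical
  intro K _ _ htd M _ O F hP
  choose A hA hO using F.ch
  have geo : ∀ m, Geo (O m) := fun m => ⟨A m, (hA m).1, (hA m).2.1, hO m⟩
  have RS : ∀ T : Set M, T.Finite → T.Nonempty → ∃ S D, Snc S D ∧ Rs A T S D := by
    intro T h1 h2
    have := h1.to_subtype
    have := h2.to_subtype
    obtain ⟨S, D, h3, h4⟩ := res K htd T (fun i => A i) (fun i => (hA i).1) (fun i => (hA i).2.1)
      (fun i n hn => by
        obtain ⟨m, e⟩ := (hA i).2.2 n hn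
        obtain ⟨u, v, h⟩ := F.two m
        rw [← e]
        exact (reg K htd (O m) ⟨u, h.1.1⟩ ⟨v, h.2.1.1⟩ (geo m) h).reg)
      (fun i j n hn n' hn' V => by
        obtain ⟨m, e⟩ := (hA i).2.2 n hn
        obtain ⟨m', e'⟩ := (hA j).2.2 n' hn'
        rw [← e, ← e']
        exact F.sep m m' V)
    exact ⟨S, D, h3, fun R => (h4 R).trans ⟨fun ⟨i, h⟩ => ⟨i, i.2, h⟩,
      fun ⟨i, hi, h⟩ => ⟨⟨i, hi⟩, h⟩⟩⟩
  have PC : ∀ {T S D}, Rs A T S D → Pc O S D := fun h x hx => by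
    obtain ⟨m, -, n, hn, e⟩ := (h _).1 ⟨x, hx, rfl⟩
    obtain ⟨m', e'⟩ := (hA m).2.2 n hn
    exact ⟨m', e'.trans e⟩
  have PT : ∀ {T S D}, Rs A T S D → ∀ m ∈ T, ∃ x : Pt S.W, Off D x ∧ x.ring = O m :=
    fun h m hm => by
      obtain ⟨n, hn, e⟩ := hO m
      exact (h _).2 ⟨m, hm, n, hn, e.symm⟩
  let Mc : ValuationSubring K → M → Prop := fun P m =>
    P ≠ ⊤ ∧ (∀ f ∈ O m, f ∈ P) ∧ ¬ Ct.Dom (O m) P
  have CV : ∀ {T S D}, Rs A T S D → ∀ m ∈ T, ∀ P, Mc P m → Cv S D P := fun h m hm P hP => by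
    obtain ⟨x, h1, h2⟩ := PT h m hm
    exact cv_of (cent K _) h1 hP.1 (h2 ▸ hP.2.1) (h2 ▸ hP.2.2)
  obtain ⟨m₀⟩ := ‹Nonempty M›
  obtain ⟨S₀, D₀, -, r₀⟩ := RS {m₀} (Set.finite_singleton _) (Set.singleton_nonempty _)
  have hZ : {P | (∃ m, Mc P m) ∧ ¬ Cv S₀ D₀ P}.Finite := by
    by_contra hinf
    obtain ⟨Y, hY, hc⟩ := Set.Infinite.exists_subset_card_eq hinf (D₀.card + 2)
    obtain ⟨T, h1, h2, h3⟩ := pick Y.finite_toSet (fun P hP => (hY hP).1) {m₀}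
      (Set.finite_singleton _)
    obtain ⟨S, D, -, r⟩ := RS T h1 ((Set.singleton_nonempty _).mono h2)
    have h4 : ∀ P : Y, Cv S D P := fun P => by
      obtain ⟨m, hm, h⟩ := h3 P P.2
      exact CV r m hm _ h
    choose c hc1 hc2 using h4
    have h5 := bound K S S₀ D₀ D (D ∪ Finset.univ.image c) (hP S D (PC r)) fun C₀ h0 => by
      obtain ⟨C, k1, k2⟩ := r₀.mono r h2 (cent K _) (cent K _) ⟨C₀, h0, rfl⟩
      refine ⟨C, fun k3 => ?_, Pl.ext' k2⟩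
      obtain ⟨P, -, rfl⟩ := Finset.mem_image.1 ((Finset.mem_union.1 k3).resolve_left k1)
      exact (hY P.2).2 ⟨C₀, h0, k2.symm.trans (hc2 P)⟩
    rw [Finset.card_union_of_disjoint (Finset.disjoint_right.2 fun C k1 => by
      obtain ⟨P, -, rfl⟩ := Finset.mem_image.1 k1
      exact hc1 P), Finset.card_image_of_injective (f := c) _ (fun P Q e => Subtype.ext
        (by rw [← hc2 P, ← hc2 Q, e])), Finset.card_univ, Fintype.card_coe, hc] at h5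
    omega
  obtain ⟨T₁, f₁, s₁, h₁⟩ := pick hZ (fun P hP => hP.1) {m₀} (Set.finite_singleton _)
  have n₁ := (Set.singleton_nonempty m₀).mono s₁
  obtain ⟨S₁, D₁, -, r₁⟩ := RS T₁ f₁ n₁
  have c₁ := cent K S₁
  have all : ∀ P m, Mc P m → Cv S₁ D₁ P := fun P m h => by
    by_cases h0 : Cv S₀ D₀ P
    · exact r₀.mono r₁ s₁ (cent K _) c₁ h0
    · obtain ⟨m', hm, h⟩ := h₁ P ⟨⟨m, h⟩, h0⟩
      exact CV r₁ m' hm _ h
  have key : ∀ m, (¬ ∃ x : Pt S₁.W, Off D₁ x ∧ x.ring = O m) →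
      ∃ C ∈ D₁, Ct.Dom (O m) C.pl.ring := by
    intro m hm
    suffices h : ∃ C : Crv S₁.W, Ct.Dom (O m) C.pl.ring by
      obtain ⟨C, h⟩ := h
      refine ⟨C, by_contra fun hC => ?_, h⟩
      obtain ⟨x, k1, k2⟩ := off hC
      obtain ⟨m', e⟩ := PC r₁ x k2
      obtain ⟨V, k3, k4⟩ := c₁.lift x C k1
      exact hm ⟨x, k2, e.symm.trans
        (F.sep m' m V (e ▸ k4) (dom_le (geo m) h k3.le k4.const))⟩
    have := (geo m).isLocalRing
    obtain ⟨V, hV⟩ := Ct.exists_dom (O m)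
    rcases c₁.ex V hV.const (ne_top htd (geo m) hV) with ⟨y, hy⟩ | ⟨C, rfl⟩
    swap
    · exact ⟨C, hV⟩
    have gy := (mdl S₁).geo y
    by_cases k1 : y.ring ≤ O m
    swap
    · obtain ⟨P, p1, p2, p3, p4⟩ := kr K htd _ _ V (geo m) (F.two m) gy hV hy k1
      obtain ⟨C, rfl⟩ := crv c₁ p1 p3 p4
      exact ⟨C, p2⟩
    exfalso
    by_cases k2 : O m ≤ y.ring
    swap
    · obtain ⟨P, p1, p2, p3, p4⟩ := kr K htd _ _ V gy (two S₁ y) (geo m) hy hV k2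
      obtain ⟨C, -, rfl⟩ := all P m ⟨p1, p3, p4⟩
      exact c₁.not_crv y C p2
    have e := le_antisymm k1 k2
    refine hm ⟨y, fun C hC k3 => ?_, e⟩
    obtain ⟨C', k4, k5⟩ := all C.pl.ring m ⟨Pl.ring_ne_top _, e ▸ k3, e ▸ c₁.not_crv y C⟩
    exact k4 (Crv.ext (Pl.ext' k5) ▸ hC)
  have hY : {R | (∃ m, O m = R) ∧ ¬ ∃ x : Pt S₁.W, Off D₁ x ∧ x.ring = R}.Finite := by
    refine (D₁.finite_toSet.biUnion (t := fun C => {R | ∃ m, O m = R ∧ Ct.Dom R C.pl.ring})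
      fun C _ => Set.Subsingleton.finite ?_).subset ?_
    · rintro _ ⟨m, rfl, h⟩ _ ⟨m', rfl, h'⟩
      exact F.sep m m' _ h h'
    · rintro _ ⟨⟨m, rfl⟩, h⟩
      obtain ⟨C, k1, k2⟩ := key m h
      exact Set.mem_biUnion (Finset.mem_coe.2 k1) ⟨m, rfl, k2⟩
  obtain ⟨T₂, f₂, s₂, h₂⟩ := pick hY (fun R hR => hR.1) T₁ f₁
  obtain ⟨S₂, D₂, snc, r₂⟩ := RS T₂ f₂ (n₁.mono s₂)
  refine ⟨S₂, D₂, snc, PC r₂, fun m => ?_⟩
  suffices h : ∃ x : Pt S₂.W, Off D₂ x ∧ x.ring = O m from h.imp fun x h => ⟨h.1, h.2.symm⟩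
  by_cases h : ∃ x : Pt S₁.W, Off D₁ x ∧ x.ring = O m
  · obtain ⟨m', hm, k⟩ := (r₁ _).1 h
    exact (r₂ _).2 ⟨m', s₂ hm, k⟩
  · obtain ⟨m', hm, e⟩ := h₂ _ ⟨⟨m, rfl⟩, h⟩
    exact e ▸ PT r₂ m' hm

end Vale.Agent.P253Y.Gl
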