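import Vale.Agent.P253Y.Spec
import Vale.Agent.P253Y.T3.Sk
import Vale.Agent.P253Y.Gl.Ff

/-! P253, block GLUE: the compactification from the affine charts. -/

open scoped Manifold ContDiff Bundle ENNReal Topology
open Bundle IsManifold MeasureTheory Set Metric Filter Vale.Agent.P253.Mfd
open Vale.Agent.P272.K (Cm Chart)
open Vale.Agent.P253Z Vale.Agent.P253Z.T2

namespace Vale.Agent.P253Y.Gl

variable {M : Type} [MetricSpace M] [ChartedSpace (Cm 2) M]
  [RiemannianBundle (fun x : M => TangentSpace 𝓘(ℝ, Cm 2) x)] [MeasurableSpace M] {μ : Measure M}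

theorem glue_of (fin : FINITE) (A : All 2 μ) (et : ET 2 M) (prim : PRIM 2 μ)
    (ch : ForF μ fun _ _ _ _ _ ff => T3.CH ff.O ∧ ∀ x, Res.Geo (ff.O x) ∧ Res.Two (ff.O x)) :
    GLUE μ := by
  intro p F K _ _ ff E
  have : Nonempty M := ⟨p⟩
  obtain ⟨h1, h2⟩ := ch p F K ff
  refine fin K (by simpa using trdeg ff A.pk3 et prim) M ff.O ⟨fun m => (h2 m).2,
    fun m m' V a b => by rw [sep_val ff A.pk2 a b], fun m => ?_⟩ E
  obtain ⟨B, b1, b2, b3, b4⟩ := h1 m
  exact ⟨B, ⟨b1, b2, b3⟩, b4⟩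

end Vale.Agent.P253Y.Gl
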