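import Vale.Agent.P253Y.Gl.Sk

/-! Two local rings with a common dominating valuation ring. -/

set_option linter.all false

open IsLocalRing

namespace Vale.Agent.P253Y.Gl

open Vale.Agent.P297Z Vale.Agent.P297Z.Sf Vale.Agent.P253Y.Res

variable {K : Type} [Field K] [Algebra ℂ K]

/-- The centre on the join of two dominated local rings is a closed point. -/
theorem ctr_max {O O' R : Subalgebra ℂ K} {V : ValuationSubring K} (h : Geo O) (h' : Geo O')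
    (hV : Ct.Dom O V) (hV' : Ct.Dom O' V) (hR : R ≤ O ⊔ O') (hle : R ≤ Ct.valAlg V hV.const) :
    (ctr hle).IsMaximal := by
  let X := Ct.valAlg V hV.const
  let T : Subalgebra ℂ K := ((⊥ : Subalgebra ℂ (X ⧸ maximalIdeal X)).comap
    (Ideal.Quotient.mkₐ ℂ (maximalIdeal X))).map X.val
  have key : ∀ O : Subalgebra ℂ K, Geo O → Ct.Dom O V → O ≤ T := fun O h hV f hf => by
    obtain ⟨c, hc⟩ := h.val hf
    refine ⟨⟨f, hV.1 f hf⟩, ⟨c, (Ideal.Quotient.eq.2 ?_).symm⟩, rfl⟩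
    exact (van_iff _).2 (Dm.van (R := X) hV hc)
  refine isMaximal_of_val (ctr_isPrime hle).ne_top fun a => ?_
  obtain ⟨x, ⟨c, hc⟩, e⟩ := sup_le (key O h hV) (key O' h' hV') (hR a.2)
  have h1 : x - algebraMap ℂ X c ∈ maximalIdeal X := Ideal.Quotient.eq.1 hc.symm
  rw [show x = Subalgebra.inclusion hle a from Subtype.ext e] at h1
  exact ⟨c, h1⟩

theorem kr (h : Res.REG) : KR := by
  rintro K _ _ htd O O' V hO ⟨u, v, huv⟩ hO' hV hV' hne
  have := hO.isLocalRing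
  have hR := h K htd O ⟨u, huv.1.1⟩ ⟨v, huv.2.1.1⟩ hO huv
  obtain ⟨f, hf, hfO⟩ := SetLike.not_le_iff_exists.1 hne
  have := hR.ufd
  have := hO.frac
  obtain ⟨a, ⟨b, hb⟩, hab, e⟩ := IsFractionRing.exists_reduced_fraction O f
  have b0 : (b : K) ≠ 0 := fun h => nonZeroDivisors.ne_zero hb (Subtype.ext h)
  have e1 : (a : K) = f * b := by
    rw [IsFractionRing.mk'_eq_div] at e
    exact (div_eq_iff b0).1 e
  have hbO : (b : K)⁻¹ ∉ O := fun h => hfO (by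
    rw [← mul_inv_cancel_right₀ b0 f, ← e1]
    exact mul_mem a.2 h)
  obtain ⟨A, a1, a2, n, hn, eO⟩ := id hO
  obtain ⟨A', a1', -, n', hn', eO'⟩ := id hO'
  have hA : A ≤ O := eO ▸ le_loc A n _
  have hA' : A' ≤ O' := eO' ▸ le_loc A' n' _
  have : Algebra.FiniteType ℂ (A ⊔ A' : Subalgebra ℂ K) := (Subalgebra.fg_iff_finiteType _).1
    (((Subalgebra.fg_iff_finiteType _).2 a1).sup ((Subalgebra.fg_iff_finiteType _).2 a1'))
  have : IsFractionRing (A ⊔ A' : Subalgebra ℂ K) K := isFractionRing_of_le le_sup_left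
  have : IsNoetherianRing (A ⊔ A' : Subalgebra ℂ K) := Algebra.FiniteType.isNoetherianRing ℂ _
  have hRV : A ⊔ A' ≤ Ct.valAlg V hV.const :=
    sup_le (fun g hg => hV.1 g (hA hg)) fun g hg => hV'.1 g (hA' hg)
  have hm := ctr_max hO hO' hV hV' (sup_le_sup hA hA') hRV
  obtain ⟨b₁, d, hd, e2⟩ : (b : K) ∈ loc A n hn.isPrime := eO ▸ b.2
  have := hm.isPrime
  obtain ⟨q, hq, hqm⟩ := Ideal.exists_minimalPrimes_le (J := ctr hRV)
    (I := Ideal.span {⟨b₁, le_sup_left (b := A') b₁.2⟩}) (by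
      rw [Ideal.span_singleton_le_iff_mem, mem_ctr]
      refine (?_ : Van (Ct.valAlg V hV.const) b₁).2
      rw [← e2, mul_comm]
      exact Van.mul_left (hV.1 _ (hA d.2)) ⟨hV.1 _ b.2, Or.inr fun h => hbO (hV.2 _ b.2 h)⟩)
  have hqp := hq.isPrime
  have hle : ∀ (B : Subalgebra ℂ K) (m : Ideal B) (hm : m.IsPrime), B ≤ A ⊔ A' →
      (∀ g ∈ loc B m hm, g ∈ V) → loc B m hm ≤ loc _ q hqp := fun B m hm h1 h2 =>
    loc_le hm (h1.trans (le_loc _ _ _)) fun g hg => inv_mem_loc hqp (b := ⟨g, h1 g.2⟩) fun h3 =>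
      ((mem_ctr hRV _).1 (hqm h3)).elim (ne_zero_of_notMem (b := g) hg)
        fun h => h (h2 _ (inv_mem_loc hm hg))
  have l1 : O ≤ loc _ q hqp := eO ▸ hle A n hn.isPrime le_sup_left (eO ▸ hV.1)
  have l2 : O' ≤ loc _ q hqp := eO' ▸ hle A' n' hn'.isPrime le_sup_right (eO' ▸ hV'.1)
  obtain ⟨P, hP⟩ := Ct.exists_dom (loc _ q hqp)
  have hbP : (b : K)⁻¹ ∉ P := fun h1 => by
    refine (inv_mem_loc_iff hqp (b := ⟨b₁, le_sup_left (b := A') b₁.2⟩)
      (e2 ▸ mul_ne_zero b0 (ne_zero_of_notMem hd))).1 ?_ (hq.1.2 (Ideal.subset_span rfl))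
    change (b₁ : K)⁻¹ ∈ _
    rw [← e2, mul_inv]
    exact mul_mem (hP.2 _ (l1 b.2) h1) (l1 (eO ▸ inv_mem_loc hn.isPrime hd))
  have l3 : O ≤ Ct.valAlg P hP.const := fun g hg => hP.1 g (l1 hg)
  have hpm : (ctr l3).IsMaximal := by
    by_contra hc
    obtain ⟨g, hg⟩ := hR.prin _ (ctr_isPrime l3) hc
    have k1 : b ∈ ctr l3 := (mem_ctr _ _).2 (Or.inr hbP)
    have k2 : a ∈ ctr l3 := (mem_ctr _ _).2 (e1 ▸ (Van.mul_left (O := Ct.valAlg P hP.const)
      (hP.1 f (l2 hf)) ⟨l3 b.2, Or.inr hbP⟩).2)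
    rw [hg] at k1 k2
    exact (ctr_isPrime l3).ne_top (hg.trans (Ideal.span_singleton_eq_top.2
      (hab (Ideal.mem_span_singleton.1 k2) (Ideal.mem_span_singleton.1 k1))))
  have hOP : Ct.Dom O P := ⟨l3, fun g hg hi => by_contra fun hc => by
    have k1 : (⟨g, hg⟩ : O) ∈ ctr l3 := eq_maximalIdeal hpm ▸ (mem_max_iff _).2 (Or.inr hc)
    refine ((mem_ctr _ _).1 k1).elim (fun h : g = 0 => hc ?_) fun h => h hi
    rw [h, inv_zero]
    exact O.zero_mem⟩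
  refine ⟨P, fun h => hbP (h ▸ ValuationSubring.mem_top _), hOP, fun g hg => hP.1 g (l2 hg),
    fun h1 => ?_⟩
  have l4 : A ⊔ A' ≤ Ct.valAlg P hOP.const := fun g hg => hP.1 g (le_loc _ _ _ hg)
  have h2 := (ctr_max hO hO' hOP h1 (sup_le_sup hA hA') l4)
  have h3 : ctr l4 = q := h2.eq_of_le hqp.ne_top fun g hg => by_contra fun hc =>
    ((mem_ctr _ _).1 hg).elim (ne_zero_of_notMem hc) fun h => h (hP.1 _ (inv_mem_loc hqp hc))
  have h4 := Ideal.height_le_one_of_isPrincipal_of_mem_minimalPrimes _ q hq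
  rw [height_eq_two htd _ q (h3 ▸ h2)] at h4
  exact absurd h4 (by decide)

end Vale.Agent.P253Y.Gl
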