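import Vale.Agent.P253Y.Gl.Glue
import Vale.Agent.P253Y.Fin.Gl
import Vale.Agent.P253Y.T3.Affx
import Vale.Agent.P253Y.T3.Algk
import Vale.Agent.P253Y.T3.Cha
import Vale.Agent.P253Y.T3.Ext
import Vale.Agent.P253Y.T3.Geoy
import Vale.Agent.P253Y.T3.Gsel
import Vale.Agent.P253Y.T3.Lag
import Vale.Agent.P253Y.T3.Primg
import Vale.Agent.P253Y.T3x.Main
import Vale.Agent.P253Z.T2.Main
import Vale.Agent.P253Z.T2.Ffe

/-! P253, block GLUE: the compactification. -/

open scoped Manifold ContDiff Bundle ENNReal Topology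
open Bundle IsManifold MeasureTheory Set Metric Filter Vale.Agent.P253.Mfd
open Vale.Agent.P272.K (Cm Chart)
open Vale.Agent.P253Z Vale.Agent.P253Z.T2

namespace Vale.Agent.P253Y.Gl

section

variable {n : ℕ} {M : Type} [MetricSpace M] [ChartedSpace (Cm n) M]
  [IsManifold 𝓘(ℂ, Cm n) 1 M] [IsManifold 𝓘(ℝ, Cm n) ∞ M]
  [RiemannianBundle (fun x : M => TangentSpace 𝓘(ℝ, Cm n) x)]
  [IsContMDiffRiemannianBundle 𝓘(ℝ, Cm n) ∞ (Cm n) (fun x : M => TangentSpace 𝓘(ℝ, Cm n) x)]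
  [IsRiemannianManifold 𝓘(ℝ, Cm n) M] [CompleteSpace M] [ConnectedSpace M] [NoncompactSpace M]
  [MeasurableSpace M] [BorelSpace M] {μ : Measure M}

theorem algkAll (c : Ctx n μ) : T3.ALGK n μ := by
  have a := (all c).a
  exact T3.algk a (et a) (T3.ext a (et a) (ffe a)) (T3.lag a (et a) (root n) (liou n))

theorem affxAll (c : Ctx n μ) : T3.AFFX n μ := by
  have A := all c
  have e := et A.a
  exact T3.affx A.a e (bnrAll c) (T3.feq_of c.npos A (aff c) (algkAll c)) (T3.primg A)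
    (T3.img A e (bnjAll c) (cut A.a e) (clop (root n) e) (conn (root n) (liou n)))

end

variable {M : Type} [MetricSpace M] [ChartedSpace (Cm 2) M]
  [IsManifold 𝓘(ℂ, Cm 2) 1 M] [IsManifold 𝓘(ℝ, Cm 2) ∞ M]
  [RiemannianBundle (fun x : M => TangentSpace 𝓘(ℝ, Cm 2) x)]
  [IsContMDiffRiemannianBundle 𝓘(ℝ, Cm 2) ∞ (Cm 2) (fun x : M => TangentSpace 𝓘(ℝ, Cm 2) x)]
  [IsRiemannianManifold 𝓘(ℝ, Cm 2) M] [CompleteSpace M] [ConnectedSpace M] [NoncompactSpace M]
  [MeasurableSpace M] [BorelSpace M] {μ : Measure M}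

/-- The surface is the complement of a divisor with normal crossings. -/
theorem glue (c : Ctx 2 μ) : GLUE μ := by
  have A := all c
  have e := et A.a
  exact glue_of finite66 A e (primAll c) fun _ _ _ _ _ ff => T3.ch_of A e
    (T3.geoy_of A.a e (primAll c) (T3x.geox M) (T3.gsel 2)) (affxAll c) (T3.cha e) ff

end Vale.Agent.P253Y.Gl
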